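import Vale.Agent.P101.Final2

namespace Vale.Agent.Results.P101.CharacterQuestion

universe u

open Vale.Agent.P101

/-- The Kirchberg–Rørdam character question.  For every separable unital C*-algebra `A` and every
free ultrafilter `ω`: the central sequence algebra `F_ω(A)` has no characters if and only if every
dimension drop algebra `I(n+2, n+3)` maps unitally into `F_ω(A)`; the latter is the well known
(Toms–Winter) characterisation of `𝒵`-stability of `A`. -/
theorem result (A : Type u) [CStarAlgebra A] [TopologicalSpace.SeparableSpace A]
    (ω : Ultrafilter ℕ) (hω : (ω : Filter ℕ) ≤ Filter.cofinite) :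
    IsEmpty (CentralSeq ω A →⋆ₐ[ℂ] ℂ) ↔
      ∀ n, Nonempty (DimDrop (n + 2) (n + 3) →⋆ₐ[ℂ] CentralSeq ω A) :=
  final A ω hω

end Vale.Agent.Results.P101.CharacterQuestion
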