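import Vale.Agent.P101.Final

namespace Vale.Agent.Results.P101.CharacterRW

universe u

open Vale.Agent.P101

/-- For every separable unital C*-algebra `A` and every free ultrafilter `ω`: the central sequence
algebra `F_ω(A)` has no characters if and only if, for every `n`, it satisfies the Rørdam–Winter
relations of the dimension drop algebra `I(n+2, n+3)`; the latter is equivalent to `𝒵`-stability
of `A`. -/
theorem result (A : Type u) [CStarAlgebra A] [TopologicalSpace.SeparableSpace A]
    (ω : Ultrafilter ℕ) (hω : (ω : Filter ℕ) ≤ Filter.cofinite) :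
    IsEmpty (CentralSeq ω A →⋆ₐ[ℂ] ℂ) ↔ ∀ n, RW n (CentralSeq ω A) :=
  final_RW A ω hω

end Vale.Agent.Results.P101.CharacterRW
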